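import Vale.Agent.P247.SCY.StmtOF
import Vale.Agent.P247.SCY.StmtGB
import Vale.Agent.P247.SCY.FE3
import Vale.Agent.P247.SCY.SoftK3
import Vale.Agent.P247.SCY.CE2
import Vale.Agent.P247.SCY.OHom
import Vale.Agent.P247.SCY.KLg
import Vale.Agent.P247.SCY.KLAV
import Vale.Agent.P247.SCY.P3V
import Vale.Agent.P247.SCY.HOM

open scoped Manifold ContDiff Topology
open MeasureTheory Set

namespace Vale.Agent.Results.P247.AlmostEverywhereHyperkahler

open Vale.Agent.P247.SCY

/-- Donaldson's hypersymplectic deformation conjecture up to a set of arbitrarily small measure,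
on every closed four-manifold with `b⁺ ≤ 3`: the deformation ends at a triple which is exactly
hyperkaehler, for the given volume form, on an open set of almost full measure, and which is
pointwise orthogonal everywhere. -/
theorem result {X : Type} [TopologicalSpace X] [ChartedSpace (EuclideanSpace ℝ (Fin 4)) X]
    [IsManifold (𝓡 4) ∞ X] [CompactSpace X] [T2Space X] [Nonempty X] [MeasurableSpace X]
    [BorelSpace X] (μ : GS.Form (EuclideanSpace ℝ (Fin 4)) X 4) (hμ : GS.Volume μ)
    (hvol : GS.vol GS.bas μ univ = 1 / 2) (hb : GS.BPlusLe3 GS.bas μ)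
    (w : Fin 3 → GS.Form (EuclideanSpace ℝ (Fin 4)) X 2) (hw : GS.Hypersymplectic GS.bas μ w)
    (hn : GS.Normalized GS.bas μ w) (ε : ℝ) (hε : 0 < ε) :
    ∃ W : ℝ → Fin 3 → GS.Form (EuclideanSpace ℝ (Fin 4)) X 2, GS.Deformation GS.bas μ w W ∧
      GS.AlmostEverywhereHyperkahler GS.bas μ (W 1) ε := by
  have hcl : ClosedExStatement := closedEx_of fun X _ _ _ _ _ M P =>
    ⟨P.Y.δ0, P.Y.δ0_pos, le_rfl, fun δ h0 h1 c hc => homForm M P h0 h1 hc⟩
  obtain ⟨W, h1, h2, h3, h4, h5, h6⟩ := finalOF (soft_of hom (kl_of p3v av))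
    (softK_of hom (kl_of p3v av)) hcl (GS.volume_iff.1 hμ) hvol (GS.bPlusLe3_iff.1 hb)
    (GS.hypersymplectic_iff.1 hw) (GS.normalized_iff.1 hn) hε
  exact ⟨W, GS.deformation_of h1, h6, h2, h4, h3, h5⟩

end Vale.Agent.Results.P247.AlmostEverywhereHyperkahler
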