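import Vale.Agent.P247.SCY.StmtV
import Vale.Agent.P247.SCY.StmtGB
import Vale.Agent.P247.SCY.FWD6
import Vale.Agent.P247.SCY.SoftK3
import Vale.Agent.P247.SCY.CE2
import Vale.Agent.P247.SCY.OHom
import Vale.Agent.P247.SCY.KLg
import Vale.Agent.P247.SCY.KLAV
import Vale.Agent.P247.SCY.P3V
import Vale.Agent.P247.SCY.HOM

open scoped Manifold ContDiff Topology
open MeasureTheory Set

namespace Vale.Agent.Results.P247.LimitHyperkahler

open Vale.Agent.P247.SCY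

/-- Donaldson's hypersymplectic deformation conjecture in the limit of infinite cohomologous
deformations. Part 1 holds on every closed four-manifold and for every hypersymplectic structure:
the limit is an exact hyperkaehler triple on an open set of full measure. Part 2, for `b⁺ ≤ 3`: the
same with the sharp constant. Part 3, for `b⁺ ≤ 3`: the deformation becomes hyperkaehler in `L¹`. -/
theorem result {X : Type} [TopologicalSpace X] [ChartedSpace (EuclideanSpace ℝ (Fin 4)) X]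
    [IsManifold (𝓡 4) ∞ X] [CompactSpace X] [T2Space X] [Nonempty X] [MeasurableSpace X]
    [BorelSpace X] (μ : GS.Form (EuclideanSpace ℝ (Fin 4)) X 4) (hμ : GS.Volume μ)
    (w : Fin 3 → GS.Form (EuclideanSpace ℝ (Fin 4)) X 2) (hw : GS.Hypersymplectic GS.bas μ w) :
    (∀ c : ℝ, 0 < c →
      (∀ x, (GS.Qm GS.bas μ w x - c • (1 : Matrix (Fin 3) (Fin 3) ℝ)).PosDef) →
      ∃ W : ℝ → Fin 3 → GS.Form (EuclideanSpace ℝ (Fin 4)) X 2,
        GS.LongDeformation GS.bas μ w W ∧ GS.LimitHyperkahler GS.bas μ W c ∧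
          GS.PrimitivesConverge W) ∧
    (GS.BPlusLe3 GS.bas μ → GS.vol GS.bas μ univ = 1 / 2 → GS.Normalized GS.bas μ w →
      (∀ ε : ℝ, 0 < ε → ε < 1 → ∃ W : ℝ → Fin 3 → GS.Form (EuclideanSpace ℝ (Fin 4)) X 2,
        GS.LongDeformation GS.bas μ w W ∧ GS.LimitHyperkahlerOne GS.bas μ W ε ∧
          GS.PrimitivesConverge W) ∧
      ∃ W : ℝ → Fin 3 → GS.Form (EuclideanSpace ℝ (Fin 4)) X 2,
        GS.LongDeformation GS.bas μ w W ∧ GS.BecomesHyperkahler GS.bas μ W) := by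
  have hcl : ClosedExStatement := closedEx_of fun X _ _ _ _ _ M P =>
    ⟨P.Y.δ0, P.Y.δ0_pos, le_rfl, fun δ h0 h1 c hc => homForm M P h0 h1 hc⟩
  have hμ' := GS.volume_iff.1 hμ
  have hw' := GS.hypersymplectic_iff.1 hw
  obtain ⟨C⟩ := exists_ccov (X := X)
  refine ⟨fun c hc h => ?_, fun hb hvol hn => ⟨fun ε hε hε1 => ?_, ?_⟩⟩
  · obtain ⟨W, V, h1, h2, h3, h4, h5, h6⟩ := finalV0' C hμ' hw' hc h
    obtain ⟨Ω, hΩ⟩ := exists_limit h3 fun x hx => by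
      obtain ⟨T, N, hN, hT⟩ := h5 x hx
      exact ⟨T, N, hN, fun t ht y hy i => (hT t ht y hy).1 i⟩
    refine ⟨W, ⟨h1.smooth, fun t ht => GS.hypersymplectic_iff.2 (h1.hyper t ht), h1.start,
      h1.exact⟩, ⟨h2, V, Ω, h3, h4, hΩ, fun x hx => ?_⟩, C.n, C.e, C.K,
      fun j => ⟨C.he j, C.hK j, C.hKt j⟩, C.cov, fun δ hδ => ?_⟩
    · obtain ⟨T, N, hN, hT⟩ := h5 x hx
      obtain ⟨T', N', hN', hT'⟩ := hΩ x hx
      have e1 := (hT (max T T') (le_max_left _ _) x (mem_of_mem_nhds hN)).2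
      rw [Qm_congr_at fun i => hT' (max T T') (le_max_right _ _) x (mem_of_mem_nhds hN') i] at e1
      exact e1
    · obtain ⟨T, hT⟩ := h6 δ hδ
      refine ⟨T, fun s t hs ht i => ?_⟩
      obtain ⟨Θ, a1, a2⟩ := hT s t hs ht i
      exact ⟨Θ, a1.1, a1.2, a2⟩
  · obtain ⟨W, U, V, h1, h2, h3, hU, hV, hUV, hVU, hvU, hvV, h4, h5, h6⟩ := finalVfull
      (soft_of hom (kl_of p3v av)) (softK_of hom (kl_of p3v av)) hcl C hμ' hvol
      (GS.bPlusLe3_iff.1 hb) hw' (GS.normalized_iff.1 hn) hε hε1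
    have h7 : ∀ x ∈ V, ∃ T : ℝ, ∃ N ∈ 𝓝 x, ∀ t, T ≤ t → ∀ y ∈ N, ∀ i, W t i y = W T i y := by
      intro x hx
      by_cases hxU : x ∈ U
      · exact ⟨1, U, hU.mem_nhds hxU, fun t ht y hy i => (h4 y hy t ht).1 i⟩
      · obtain ⟨T, N, hN, hT⟩ := h5 x hx hxU
        exact ⟨T, N, hN, fun t ht y hy i => (hT t ht y hy).1 i⟩
    obtain ⟨Ω, hΩ⟩ := exists_limit hV h7
    have hUΩ : ∀ x ∈ U, ∀ t, 1 ≤ t → ∀ i, W t i x = Ω i x := by
      intro x hx t ht i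
      obtain ⟨T', N', hN', hT'⟩ := hΩ x (hUV hx)
      rw [(h4 x hx t ht).1 i, ← hT' (max 1 T') (le_max_right _ _) x (mem_of_mem_nhds hN') i,
        (h4 x hx (max 1 T') (le_max_left _ _)).1 i]
    have hQU : ∀ x ∈ U, HS.Qm μ Ω x = 1 := by
      intro x hx
      have e1 := (h4 x hx 1 le_rfl).2
      rw [Qm_congr_at fun i => hUΩ x hx 1 le_rfl i] at e1
      exact e1
    refine ⟨W, ⟨h1.smooth, fun t ht => GS.hypersymplectic_iff.2 (h1.hyper t ht), h1.start,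
      h1.exact⟩, ⟨h3, ⟨⟨U, hU, hvU, fun x hx => (h4 x hx 1 le_rfl).2⟩, h2.1, h2.2.1, h2.2.2.1,
        h2.2.2.2⟩, U, V, Ω, hU, hV, hUV, hVU, hvU, hvV, hΩ, hQU, fun x hx => ?_, hUΩ⟩,
      C.n, C.e, C.K, fun j => ⟨C.he j, C.hK j, C.hKt j⟩, C.cov, fun δ hδ => ?_⟩
    · obtain ⟨T, N, hN, hT⟩ := h5 x hx.1 hx.2
      obtain ⟨T', N', hN', hT'⟩ := hΩ x hx.1
      have e1 := (hT (max T T') (le_max_left _ _) x (mem_of_mem_nhds hN)).2
      rw [Qm_congr_at fun i => hT' (max T T') (le_max_right _ _) x (mem_of_mem_nhds hN') i] at e1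
      exact e1
    · obtain ⟨T, hT⟩ := h6 δ hδ
      refine ⟨T, fun s t hs ht i => ?_⟩
      obtain ⟨Θ, a1, a2⟩ := hT s t hs ht i
      exact ⟨Θ, a1.1, a1.2, a2⟩
  · obtain ⟨W, h1, h2, h3⟩ := infinitePath (softK_of hom (kl_of p3v av)) hcl hμ' hvol
      (GS.bPlusLe3_iff.1 hb) hw' (GS.normalized_iff.1 hn)
    exact ⟨W, ⟨h1.smooth, fun t ht => GS.hypersymplectic_iff.2 (h1.hyper t ht), h1.start,
      h1.exact⟩, h2, h3⟩

end Vale.Agent.Results.P247.LimitHyperkahler
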