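import Vale.Agent.Results.P247.TorusFibration
import Vale.Agent.Results.P247.LimitHyperkahler

open scoped Manifold ContDiff Topology
open MeasureTheory Set

namespace Vale.Agent.Results.P247.HyperkahlerDeformations

open Vale.Agent.P247 Vale.Agent.P247.SCY

/-- Donaldson's hypersymplectic deformation conjecture: exact deformations on `T⁴` along torus
fibrations, and, on every closed four-manifold, infinite cohomologous deformations whose limit is
an exact hyperkaehler triple almost everywhere. -/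
theorem result :
    (∀ w : Fin 3 → Stmt.Form 2, Stmt.Hypersymplectic w → Stmt.Normalized w →
      ∀ f : Stmt.R4 → Stmt.R4, Stmt.TorusDiffeo f → ∀ b c : Fin 3 → ℝ,
      (∀ s t : ℝ, (∀ i, s * b i + t * c i = 0) → s = 0 ∧ t = 0) →
      (∀ x u v, Stmt.Vertical f x u → Stmt.Vertical f x v →
        ∑ i, b i * Stmt.val (w i) x u v = 0) →
      (∀ x u v, Stmt.Vertical f x u → Stmt.Vertical f x v →
        ∑ i, c i * Stmt.val (w i) x u v = 0) →
      ∃ γ : ℝ → Fin 3 → Stmt.Form 2, Stmt.Deformation w γ ∧ Stmt.Hyperkahler (γ 1)) ∧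
    ∀ (X : Type) [TopologicalSpace X] [ChartedSpace (EuclideanSpace ℝ (Fin 4)) X]
      [IsManifold (𝓡 4) ∞ X] [CompactSpace X] [T2Space X] [Nonempty X] [MeasurableSpace X]
      [BorelSpace X] (μ : GS.Form (EuclideanSpace ℝ (Fin 4)) X 4), GS.Volume μ →
      ∀ w : Fin 3 → GS.Form (EuclideanSpace ℝ (Fin 4)) X 2, GS.Hypersymplectic GS.bas μ w →
      (∀ c : ℝ, 0 < c →
        (∀ x, (GS.Qm GS.bas μ w x - c • (1 : Matrix (Fin 3) (Fin 3) ℝ)).PosDef) →
        ∃ W : ℝ → Fin 3 → GS.Form (EuclideanSpace ℝ (Fin 4)) X 2,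
          GS.LongDeformation GS.bas μ w W ∧ GS.LimitHyperkahler GS.bas μ W c ∧
            GS.PrimitivesConverge W) ∧
      (GS.BPlusLe3 GS.bas μ → GS.vol GS.bas μ univ = 1 / 2 → GS.Normalized GS.bas μ w →
        (∀ ε : ℝ, 0 < ε → ε < 1 → ∃ W : ℝ → Fin 3 → GS.Form (EuclideanSpace ℝ (Fin 4)) X 2,
          GS.LongDeformation GS.bas μ w W ∧ GS.LimitHyperkahlerOne GS.bas μ W ε ∧
            GS.PrimitivesConverge W) ∧
        ∃ W : ℝ → Fin 3 → GS.Form (EuclideanSpace ℝ (Fin 4)) X 2,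
          GS.LongDeformation GS.bas μ w W ∧ GS.BecomesHyperkahler GS.bas μ W) :=
  ⟨fun w hw hn f hf b c hbc hb hc => TorusFibration.result w hw hn f hf b c hbc hb hc,
    fun _ _ _ _ _ _ _ _ _ μ hμ w hw => LimitHyperkahler.result μ hμ w hw⟩

end Vale.Agent.Results.P247.HyperkahlerDeformations
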