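import Vale.Agent.P247.SCY.StmtO
import Vale.Agent.P247.SCY.StmtGB
import Vale.Agent.P247.SCY.EXM4
import Vale.Agent.P247.SCY.SoftK3
import Vale.Agent.P247.SCY.CE2
import Vale.Agent.P247.SCY.OHom
import Vale.Agent.P247.SCY.KLg
import Vale.Agent.P247.SCY.KLAV
import Vale.Agent.P247.SCY.P3V
import Vale.Agent.P247.SCY.HOM

open scoped Manifold ContDiff Topology
open MeasureTheory Set

namespace Vale.Agent.Results.P247.OrthogonalHyperkahler

open Vale.Agent.P247.SCY

/-- Donaldson's hypersymplectic deformation conjecture with the off-diagonal hyperkaehler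
equations solved exactly and the diagonal ones up to an arbitrarily small error, on every closed
four-manifold with `b⁺ ≤ 3`. -/
theorem result {X : Type} [TopologicalSpace X] [ChartedSpace (EuclideanSpace ℝ (Fin 4)) X]
    [IsManifold (𝓡 4) ∞ X] [CompactSpace X] [T2Space X] [Nonempty X] [MeasurableSpace X]
    [BorelSpace X] (μ : GS.Form (EuclideanSpace ℝ (Fin 4)) X 4) (hμ : GS.Volume μ)
    (hvol : GS.vol GS.bas μ univ = 1 / 2) (hb : GS.BPlusLe3 GS.bas μ)
    (w : Fin 3 → GS.Form (EuclideanSpace ℝ (Fin 4)) X 2) (hw : GS.Hypersymplectic GS.bas μ w)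
    (hn : GS.Normalized GS.bas μ w) (ε : ℝ) (hε : 0 < ε) :
    ∃ W : ℝ → Fin 3 → GS.Form (EuclideanSpace ℝ (Fin 4)) X 2, GS.Deformation GS.bas μ w W ∧
      GS.OrthoHyperkahler GS.bas μ (W 1) ε := by
  have hcl : ClosedExStatement := closedEx_of fun X _ _ _ _ _ M P =>
    ⟨P.Y.δ0, P.Y.δ0_pos, le_rfl, fun δ h0 h1 c hc => homForm M P h0 h1 hc⟩
  obtain ⟨W, h1, h2, h3, h4, h5⟩ := finalC (softK_of hom (kl_of p3v av)) hcl
    (GS.volume_iff.1 hμ) hvol (GS.bPlusLe3_iff.1 hb) (GS.hypersymplectic_iff.1 hw)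
    (GS.normalized_iff.1 hn) hε
  exact ⟨W, GS.deformation_of h1, h2, h4, h3, h5⟩

end Vale.Agent.Results.P247.OrthogonalHyperkahler
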